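import Vale.Agent.P286EX4.Bin
import Vale.Agent.P286EX.Defs
import Vale.Agent.P286.H652.J2
import Vale.Agent.P286.H652.Ins
import Vale.Agent.P286.H847.BrgD

/-!
# The jets of a twisted family of modules over the forms
-/

set_option linter.all false

namespace Vale.Agent.P286EX

open CategoryTheory TensorProduct Vale.Agent.P286 Vale.Agent.P286.St Vale.Agent.P286.H847
  Vale.Agent.P286.H353 Vale.Agent.P286.H710 Vale.Agent.P286.H697 Vale.Agent.P286.H389
  Vale.Agent.P286.H652 JT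

noncomputable section

section Point

variable {A B : Type} [CommRing A] [Algebra ℂ A] [CommRing B] [Algebra ℂ B]

namespace JT

variable {V V' W : Type} [AddCommGroup V] [Module ℂ V] [Module A V] [IsScalarTower ℂ A V]
  [AddCommGroup V'] [Module ℂ V'] [Module A V'] [IsScalarTower ℂ A V']
  [AddCommGroup W] [Module ℂ W] [Module B W] [IsScalarTower ℂ B W]

/-- The module structure of the jets. -/
@[reducible] def jmod (A V : Type) [CommRing A] [Algebra ℂ A] [AddCommGroup V] [Module ℂ V]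
    [Module A V] [IsScalarTower ℂ A V] : Module A (J A V) where
  smul a x := J.fn a x
  one_smul x := by
    change J.fn 1 x = x
    have := (J.isDMod (A := A) (V := V)).const 1 x
    simpa using this
  mul_smul a b x := J.isDMod.fn_mul a b x
  smul_zero a := map_zero (J.fn a)
  smul_add a x y := map_add (J.fn a) x y
  add_smul a b x := J.isDMod.fn_add a b x
  zero_smul x := by
    change J.fn 0 x = 0
    have := (J.isDMod (A := A) (V := V)).const 0 x
    simpa using this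

theorem ev_mk (z : Cau (FJ A V)) {k : ℕ} (hk : 1 ≤ k) : J.ev (Cmp.mk _ z) = J.evl A V (z.1 k) := by
  change J.evl A V (z.1 1) = _
  rw [eq_comm, ← sub_eq_zero, ← map_sub]
  exact J.evl_zero _ (Cmp.cau z hk)

theorem map_eq_on {u w : V →ₗ[ℂ] V'} (hu : DO A u) (hw : DO A w) {G : Submodule ℂ V}
    (h : ∀ x ∈ G, u x = w x) {x : J A V} (hx : x ∈ grJ A G) : J.map u hu x = J.map w hw x := by
  rw [← sub_eq_zero, ← LinearMap.sub_apply, ← J.map_sub]
  obtain ⟨z, hz, e⟩ := lift_clo _ (hu.sub hw) (G' := ⊥) (lG_le (G := G) fun a y hy => by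
    rw [LinearMap.lTensor_tmul, LinearMap.sub_apply, h y hy, sub_self, tmul_zero]
    exact zero_mem _) hx
  refine e.symm.trans ((Cmp.mk_eq_zero z).2 fun n => ?_)
  rw [(Submodule.mem_bot ℂ).1 (hz n)]
  exact zero_mem _

theorem jmm {V'' : Type} [AddCommGroup V''] [Module ℂ V''] [Module A V'']
    [IsScalarTower ℂ A V''] (w : V' →ₗ[ℂ] V'') (hw : DO A w) (u : V →ₗ[ℂ] V') (hu : DO A u)
    (x : J A V) : J.map w hw (J.map u hu x) = J.map (w ∘ₗ u) (hw.comp hu) x := by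
  rw [J.map_comp]; rfl

theorem map_zsmul' (k : ℤ) (u : V →ₗ[ℂ] V') (hu : DO A u) (h : DO A (k • u)) (x : J A V) :
    J.map (k • u) h x = k • J.map u hu x := by
  rw [J.map_congr (Int.cast_smul_eq_zsmul ℂ k u).symm h (hu.smul _), J.map_smul,
    LinearMap.smul_apply, Int.cast_smul_eq_zsmul]

theorem map_tp (s : ℂ) {δ : B} (hδ : IsUnit δ) {W' : Type} [AddCommGroup W'] [Module ℂ W']
    [Module B W'] [IsScalarTower ℂ B W'] (f : A →ₐ[ℂ] B) (u : V →ₗ[ℂ] W)
    (h : ∀ (a : A) x, u (a • x) = f a • u x) (u' : V' →ₗ[ℂ] W')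
    (h' : ∀ (a : A) x, u' (a • x) = f a • u' x) (p : V →ₗ[ℂ] V') (hp : DO A p) (q : W →ₗ[ℂ] W')
    (hq : ∀ (a : B) x, q (a • x) = a • q x) (e : ∀ x, u' (p x) = q (u x)) (x : J A V) :
    J.map q (DO.lin hq) (tp s δ f u h x) = tp s δ f u' h' (J.map p hp x) := by
  rw [tp_apply, tp_apply, map_bt s hδ q hq, J.pull_map f u h u' h' p hp q (DO.lin hq) e]

theorem tp_id (s : ℂ) {δ : A} (hδ : δ = 1) {f : A →ₐ[ℂ] A} (hf : f = AlgHom.id ℂ A)
    (u : V →ₗ[ℂ] V) (h : ∀ (a : A) x, u (a • x) = f a • u x) (e : ∀ x, u x = x) (x : J A V) :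
    tp s δ f u h x = x := by
  subst hδ hf
  rw [tp_apply, bt_one, J.pull_id u h e]

theorem tp_tp {D W'' : Type} [CommRing D] [Algebra ℂ D] [AddCommGroup W''] [Module ℂ W'']
    [Module D W''] [IsScalarTower ℂ D W''] (s : ℂ) {δ : B} {ε ζ : D} (hδ : IsUnit δ)
    (hε : IsUnit ε) (f : A →ₐ[ℂ] B) (g : B →ₐ[ℂ] D) {k : A →ₐ[ℂ] D} (hk : k = g.comp f)
    (hζ : ζ = g δ * ε) (u : V →ₗ[ℂ] W)
    (h : ∀ (a : A) x, u (a • x) = f a • u x) (u' : W →ₗ[ℂ] W'')
    (h' : ∀ (a : B) x, u' (a • x) = g a • u' x) (u'' : V →ₗ[ℂ] W'')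
    (h'' : ∀ (a : A) x, u'' (a • x) = k a • u'' x) (e : ∀ x, u'' x = u' (u x)) (x : J A V) :
    tp s ζ k u'' h'' x = tp s ε g u' h' (tp s δ f u h x) := by
  subst hk hζ
  rw [tp_apply, tp_apply, tp_apply, pull_bt s hδ, J.pull_pull f g u h u' h' u'' h'' e, mul_comm,
    bt_mul s hε (hδ.map g)]

theorem hext {M N : GD} {u v : GD.Hom M N} (h : ∀ x, u.f x = v.f x) : u = v := by
  cases u; cases v
  congr
  exact LinearMap.ext h

end JT

/-- The map of jets defined by a differential operator which commutes with the differentials. -/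
def jH {M N : AGD A} (u : GD.Hom M.toGD N.toGD) (h : DO A u.f) : GD.Hom (JG M) (JG N) where
  f := J.map u.f h
  comm x := (jmm _ _ _ _ x).trans
    ((LinearMap.congr_fun (J.map_congr (LinearMap.ext u.comm) _ _) x).trans (jmm _ _ _ _ x).symm)
  deg m _ hx := JG.map_gr u.f h (u.deg m) hx

theorem JT.htpy {M : AGD A} {p s : M.V →ₗ[ℂ] M.V} (hp : DO A p) (hs : DO A s) {m : ℤ}
    (h : ∀ x ∈ M.gr m, M.d (s x) + s (M.d x) = x - p x) {x : J A M.V} (hx : x ∈ (JG M).gr m) :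
    (JG M).d (J.map s hs x) + J.map s hs ((JG M).d x) = x - J.map p hp x := by
  have e := map_eq_on ((M.dO.comp hs).add (hs.comp M.dO)) (DO.id.sub hp) (G := M.gr m) h hx
  rw [J.map_add _ (M.dO.comp hs) _ (hs.comp M.dO), J.map_sub _ DO.id _ hp, J.map_id,
    J.map_comp _ M.dO _ hs, J.map_comp _ hs _ M.dO] at e
  exact e

/-- A homotopy equivalence by differential operators induces a quasi-isomorphism of the jets. -/
theorem qis_jH {M N : AGD A} (u : GD.Hom M.toGD N.toGD) (hu : DO A u.f) (v : GD.Hom N.toGD M.toGD)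
    (hv : DO A v.f) (s : M.V →ₗ[ℂ] M.V) (ds : DO A s) (hs : ∀ m, ∀ x ∈ M.gr m, s x ∈ M.gr (m - 1))
    (h : ∀ m, ∀ x ∈ M.gr m, M.d (s x) + s (M.d x) = x - v.f (u.f x))
    (t : N.V →ₗ[ℂ] N.V) (dt : DO A t) (ht : ∀ m, ∀ x ∈ N.gr m, t x ∈ N.gr (m - 1))
    (k : ∀ m, ∀ x ∈ N.gr m, N.d (t x) + t (N.d x) = x - u.f (v.f x)) : GD.Qis (jH u hu) :=
  GD.Qis.of_htpy (jH u hu) (jH v hv) (J.map s ds) (fun m _ hx => JG.map_gr s ds (hs m) hx)
    (fun m x hx => (JT.htpy (hv.comp hu) ds (h m) hx).trans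
      (congrArg (x - ·) (jmm _ hv _ hu x).symm))
    (J.map t dt) (fun m _ hx => JG.map_gr t dt (ht m) hx)
    (fun m x hx => (JT.htpy (hu.comp hv) dt (k m) hx).trans
      (congrArg (x - ·) (jmm _ hu _ hv x).symm))

theorem om_lin {M N : OmM A} {n : ℤ} {u : M.M.V →ₗ[ℂ] N.M.V}
    (h : ∀ (w : Om ℂ A) x, u (w • x) = Om.sgz n w • u x) (a : A) (x : M.M.V) :
    u (a • x) = a • u x := by
  rw [om_alg, h, AlgHom.commutes, ← om_alg]

/-- The jets of a module over the forms, as a complex of `D`-modules. -/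
def jA (M : OmM A) : DGM A :=
  letI : Module A (JG (oA M)).V := jmod A M.M.V
  { M := JG (oA M)
    mod := jmod A M.M.V
    tow := ⟨fun c a x => by
      change J.fn (c • a) x = c • J.fn a x
      rw [Algebra.smul_def]
      exact (J.isDMod.fn_mul _ _ x).trans (J.isDMod.const c _)⟩
    C :=
      { act := fun v x => J.vf v x
        act_add := fun v x y => map_add (J.vf v) x y
        add_act := fun v w x => J.isDMod.vf_add v w x
        smul_act := fun a v x => J.isDMod.vf_smul a v x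
        leibniz := fun v a x => J.isDMod.vf_fn v a x
        lie_act := fun v w x => J.isDMod.vf_lie v w x }
    d_smul := fun a x => J.map_fn _ _ a x
    d_act := fun v x => J.map_vf _ _ v x
    gr_smul := fun _ a _ hx => JG.fn_gr a hx
    gr_act := fun _ v _ hx => JG.vf_gr v hx }

/-- The value on the diagonal. -/
def ev0 (M : OmM A) : (jA M).M.V →ₗ[A] M.M.V where
  toFun x := J.ev (A := A) (V := M.M.V) x
  map_add' := map_add _
  map_smul' a x := J.ev_fn a x

theorem ev0_apply (M : OmM A) (x : J A M.M.V) : ev0 M x = J.ev x := rfl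

theorem ev0_gr (M : OmM A) {m : ℤ} {x : (jA M).M.V} (hx : x ∈ (jA M).M.gr m) :
    ev0 M x ∈ M.M.gr m := JG.ev_gr (M := oA M) hx

theorem JT.d_ev (b : H710.DB ℂ A) (M : OmM A) (x : J A M.M.V) :
    M.M.d (J.ev (A := A) (V := M.M.V) x) =
    ∑ i, (Om.dd (b.x i) : Om ℂ A) • J.ev (A := A) (V := M.M.V) (J.vf (b.v i) x) +
    J.ev (A := A) (V := M.M.V) (J.map M.M.d (om_o1 M).do x) := by
  induction x using Cmp.ind with
  | h z =>
    unfold J.vf J.map
    rw [lift_mk _ _ z 1 (fun n x hx => (om_o1 M).mem x hx), ev_mk z (k := 2) (by omega)]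
    simp only [fun i => lift_mk _ (J.vf_bdd (V := M.M.V) (b.v i)) z 1
      (fun n x hx => J.vf_mem (b.v i) x hx)]
    change M.M.d (J.evl A M.M.V (z.1 2)) = ∑ i, (Om.dd (b.x i) : Om ℂ A) • J.evl A M.M.V
      ((b.v i : A →ₗ[ℂ] A).rTensor _ (z.1 2)) + J.evl A M.M.V (M.M.d.lTensor A (z.1 2))
    induction z.1 2 with
    | zero => simp
    | tmul a y =>
      simp only [LinearMap.rTensor_tmul, LinearMap.lTensor_tmul, J.evl_tmul, (om_o1 M).comm,
        Derivation.coeFn_coe]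
      rw [add_comm, Algebra.lsmul_apply, b.dd a, Finset.sum_smul]
      simp only [smul_assoc, smul_comm (b.v _ a)]
    | add x y hx hy =>
      simp only [map_add, hx, hy, smul_add, Finset.sum_add_distrib]
      abel

theorem d_ev0 (b : H710.DB ℂ A) (M : OmM A) (x : (jA M).M.V) : M.M.d (ev0 M x) =
    ∑ i, (Om.dd (b.x i) : Om ℂ A) • ev0 M ((jA M).C.act (b.v i) x) + ev0 M ((jA M).M.d x) :=
  JT.d_ev b M x

/-- The map `w ⊗ j ↦ w • j(0)`. -/
def evL (M : OmM A) : DR ℂ A (jA M).M.V →ₗ[A] M.M.V :=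
  TensorProduct.lift ((Algebra.lsmul A A M.M.V : Om ℂ A →ₐ[A] _).toLinearMap.compl₂ (ev0 M))

theorem evL_tmul (M : OmM A) (w : Om ℂ A) (x : (jA M).M.V) : evL M (w ⊗ₜ x) = w • ev0 M x := rfl

theorem evL_smul (M : OmM A) (w : Om ℂ A) (x : DR ℂ A (jA M).M.V) :
    evL M (w • x) = w • evL M x := by
  induction x using DR.induction with
  | zero => simp
  | tmul u x => rw [smul_tmul', smul_eq_mul, evL_tmul, evL_tmul, mul_smul]
  | add x y hx hy => rw [smul_add, map_add, map_add, hx, hy, smul_add]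

/-- The evaluation `DR (J M) → M`. -/
def evA (b : H710.DB ℂ A) (M : OmM A) : GD.Hom (drO b (jA M)).M M.M where
  f := (evL M).restrictScalars ℂ
  comm x := by
    change evL M ((jA M).D b x) = M.M.d (evL M x)
    induction x using DR.induction with
    | zero => simp
    | tmul w x =>
      rw [DGM.D_apply, dR_tmul, sgT_tmul, map_add, map_add, evL_smul, nab_apply, map_sum]
      simp only [evL_tmul]
      rw [M.leib, d_ev0 b, smul_add, add_assoc]
      rfl
    | add x y hx hy => simp only [map_add, hx, hy]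
  deg m x hx := by
    change evL M x ∈ _
    induction hx using DGM.gr_ind with
    | zero => rw [map_zero]; exact zero_mem _
    | tmul p i h w hw x hx =>
      rw [evL_tmul, ← h, add_comm]
      exact M.smul_gr p i w _ hw (ev0_gr M hx)
    | add x y _ _ hx hy => rw [map_add]; exact add_mem hx hy

theorem evA_apply (b : H710.DB ℂ A) (M : OmM A) (x : DR ℂ A (jA M).M.V) :
    (evA b M).f x = evL M x := rfl

variable (b : H710.DB ℂ A) (K : DGM A)

/-- The Taylor series `K → J (DR K)`. -/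
def j2P : GD.Hom K.M (jA (drO b K)).M := j2A b K

theorem j2P_apply (x : K.M.V) : (j2P b K).f x = toJ (dbo b) K.C x := rfl

theorem qis_j2P : GD.Qis (j2P b K) := qis_j2A b K

theorem j2P_smul (a : A) (x : K.M.V) : (j2P b K).f (a • x) = a • (j2P b K).f x :=
  toJ_fn (dbo b) K.C a x

theorem j2P_act (v : Derivation ℂ A A) (x : K.M.V) :
    (j2P b K).f (K.C.act v x) = (jA (drO b K)).C.act v ((j2P b K).f x) := toJ_vf (dbo b) K.C v x

theorem ev0_j2P (x : K.M.V) : ev0 (drO b K) ((j2P b K).f x) = (1 : Om ℂ A) ⊗ₜ[A] x :=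
  ev_toJ (dbo b) K.C x

/-- The value on the diagonal in form degree zero, `J (DR K) → K`. -/
def e0 : GD.Hom (jA (drO b K)).M K.M :=
  (pcD b K).ofJG K.M (inC K) (outC K) (inC_outC K b) (outC_inC K) (inC_d K) (outC_gr b K)

theorem e0_apply (x : (jA (drO b K)).M.V) : (e0 b K).f x = outM A K.M.V (ev0 (drO b K) x) := rfl

theorem e0_smul (a : A) (x : (jA (drO b K)).M.V) : (e0 b K).f (a • x) = a • (e0 b K).f x := by
  rw [e0_apply, e0_apply, map_smul, map_smul]

theorem e0_j2P (x : K.M.V) : (e0 b K).f ((j2P b K).f x) = x := by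
  rw [e0_apply, ev0_j2P]
  exact outM_inM x

theorem qis_e0 : GD.Qis (e0 b K) := by
  refine GD.Qis.of_comp_right (qis_j2P b K) ?_
  have e : (e0 b K).comp (j2P b K) = GD.Hom.id _ := hext (e0_j2P b K)
  rw [e]
  exact GD.Qis.id _

theorem outM_evL (x : DR ℂ A (jA (drO b K)).M.V) :
    outM A K.M.V (evL (drO b K) x) = (e0 b K).f (outM A _ x) := by
  have h : ∀ (w : Om ℂ A) (y : DR ℂ A K.M.V), outM A K.M.V (w • y) =
      ExteriorAlgebra.algebraMapInv (R := A) (M := Ω[A⁄ℂ]) w • outM A K.M.V y := fun w y => by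
    induction y using DR.induction with
    | zero => simp
    | tmul u y => rw [smul_tmul', smul_eq_mul, outM_tmul, outM_tmul, map_mul, mul_smul]
    | add x y hx hy => rw [smul_add, map_add, map_add, hx, hy, smul_add]
  induction x using DR.induction with
  | zero => simp
  | tmul w x => rw [evL_tmul, outM_tmul, e0_smul, e0_apply]; exact h w _
  | add x y hx hy => simp only [map_add, hx, hy]

/-- A linear map of de Rham complexes which covers a quasi-isomorphism in form degree zero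
induces a quasi-isomorphism of the jets. -/
theorem qis_jH_dr (b' : H710.DB ℂ A) {K K' : DGM A} (u : GD.Hom (drO b K).M (drO b' K').M)
    (hu : ∀ (a : A) x, u.f (a • x) = a • u.f x) (v : GD.Hom K.M K'.M) (hv : GD.Qis v)
    (e : ∀ x, outM A K'.M.V (u.f x) = v.f (outM A K.M.V x)) :
    GD.Qis (jH (M := oA (drO b K)) (N := oA (drO b' K')) u (DO.lin hu)) := by
  refine GD.Qis.of_comp_left (qis_e0 b' K') ?_
  have h : (e0 b' K').comp (jH (M := oA (drO b K)) (N := oA (drO b' K')) u (DO.lin hu)) =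
      v.comp (e0 b K) := hext fun x =>
    (congrArg (outM A K'.M.V) (J.ev_map u.f hu x)).trans (e _)
  exact h ▸ hv.comp (qis_e0 b K)

/-- The Taylor series is natural for twisted horizontal maps. -/
theorem toJ_tw {M N : Type} [AddCommGroup M] [Module A M] [AddCommGroup N] [Module B N]
    (b : H389.DB A) (C : FC ℂ A M) (b' : H389.DB B) (C' : FC ℂ B N) (f : A →ₐ[ℂ] B)
    (u : DR ℂ A M →ₗ[ℂ] DR ℂ B N) (h : ∀ (a : A) x, u (a • x) = f a • u x) (s : ℂ) {δ : B}
    (hδ : IsUnit δ) (h0 : ∀ x, u (prD A M 0 x) = prD B N 0 (u x))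
    (hd : ∀ x, dR b'.to C' (u x) = u (dR b.to C x) -
      (algebraMap ℂ B s * Ring.inverse δ) • (Om.dd δ : Om ℂ B) • u x)
    (m : M) (m' : N) (e : u (inM m) = inM m') :
    tp s δ f u h (toJ b C m) = toJ b' C' m' := by
  have e1 := (ctn b' C').eq_T b' (tp s δ f u h (toJ b C m))
    ((map_tp s hδ f u h u h ((ctn b C).pr 0) (DO.lin ((ctn b C).pr_lin 0)) ((ctn b' C').pr 0)
      ((ctn b' C').pr_lin 0) h0 _).trans (congrArg _ ((ctn b C).pr_T b _)))
    ((ord_tp s f u h hδ (ctn b C).ord1.do (ctn b' C').ord1 hd _).symm.trans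
      ((congrArg _ (D_toJ b C m)).trans (map_zero _)))
  rw [e1, ev_tp, ev_toJ, e]
  rfl

end Point

variable {T : TSite}

theorem OT.sl (F : OT T) {X Y : T.C} (φ : X ⟶ Y) (a : T.R X) (x : (F.F X).M.V) :
    F.t φ (a • x) = T.f φ a • F.t φ x := by
  rw [om_alg, F.t_smul, Om.pb_alg, ← om_alg]

/-- The transition maps of the jets. -/
def OT.jtr (F : OT T) (hT : Good T) {X Y : T.C} (φ : X ⟶ Y) :
    GD.Hom (jA (F.F X)).M (jA (F.F Y)).M where
  f := tp T.s (T.dl φ) (T.f φ) (F.t φ) (F.sl φ)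
  comm x := ord_tp T.s (T.f φ) (F.t φ) (F.sl φ) (hT.unit φ) (om_o1 (F.F X)).do (om_o1 (F.F Y))
    (fun y => by rw [F.t_d, eta, smul_assoc]; rfl) x
  deg m _ hx := bt_gr _ _ (fun a => (oA (F.F Y)).sm a m)
    (JG.pull_gr (M := oA (F.F X)) (M' := oA (F.F Y)) (T.f φ) (F.t φ) (F.sl φ) (F.t_gr φ m) hx)

/-- The jets of a twisted family. -/
def OT.jt (F : OT T) (hT : Good T) : GTD T where
  F X := (jA (F.F X)).M
  fn X a := J.fn a
  vf X v := J.vf v
  tr φ := F.jtr hT φ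
  fn_gr X a m x hx := JG.fn_gr a hx
  vf_gr X v m x hx := JG.vf_gr v hx
  fn_d X a x := J.map_fn _ _ a x
  vf_d X v x := J.map_vf _ _ v x
  dmod X := J.isDMod
  trans X Y φ := tp_trans T.s (T.f φ) (F.t φ) (F.sl φ) (hT.unit φ)
  id X x := tp_id T.s (hT.dl_id X) (hT.fid X) (F.t (𝟙 X)) (F.sl (𝟙 X)) (F.t_id X) x
  comp X Y Z φ ψ x := tp_tp T.s (hT.unit φ) (hT.unit ψ) (T.f φ) (T.f ψ) (hT.fcomp φ ψ)
    (hT.dl_comp φ ψ) (F.t φ) (F.sl φ) (F.t ψ) (F.sl ψ) (F.t (φ ≫ ψ)) (F.sl (φ ≫ ψ))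
    (F.t_comp φ ψ) x
  cen X φ hφ := by rw [hT.cen X] at hφ; exact absurd hφ (Set.notMem_empty φ)

theorem OT.dgm_jt (F : OT T) (hT : Good T) (X : T.C) : dgm (F.jt hT) X = jA (F.F X) := rfl

theorem OT.ev0_tr (F : OT T) (hT : Good T) {X Y : T.C} (φ : X ⟶ Y) (x : (jA (F.F X)).M.V) :
    ev0 (F.F Y) (((F.jt hT).tr φ).f x) = F.t φ (ev0 (F.F X) x) :=
  ev_tp T.s (T.f φ) (F.t φ) (F.sl φ) x

theorem OT.IsCo.lin {F F' : OT T} {n : ℤ} {u : ∀ X, (F.F X).M.V →ₗ[ℂ] (F'.F X).M.V}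
    (h : OT.IsCo F F' n u) (X : T.C) (a : T.R X) (x : (F.F X).M.V) : u X (a • x) = a • u X x :=
  om_lin (h.smul X) a x

/-- The component of a cochain. -/
def OT.cX {F F' : OT T} {n : ℤ} (u : (otF T).P F F' n) (X : T.C) :
    (F.F X).M.V →ₗ[ℂ] (F'.F X).M.V := u.1 X

theorem OT.cX_co {F F' : OT T} {n : ℤ} (u : (otF T).P F F' n) : OT.IsCo F F' n (OT.cX u) := u.2

theorem OT.cX_do {F F' : OT T} {n : ℤ} (u : (otF T).P F F' n) (X : T.C) :
    DO (T.R X) (OT.cX u X) := DO.lin ((OT.cX_co u).lin X)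

/-- The cochain of the jets. -/
def jtC (hT : Good T) {F F' : OT T} {n : ℤ} (u : (otF T).P F F' n) :
    GTD.Coch (F.jt hT) (F'.jt hT) n where
  f X := J.map (OT.cX u X) (OT.cX_do u X)
  deg X m _ hx := JG.map_gr (M := oA (F.F X)) (N := oA (F'.F X)) _ _ ((OT.cX_co u).deg X m) hx
  fn X a x := J.map_fn _ _ a x
  vf X v x := J.map_vf _ _ v x
  tr φ x := map_tp T.s (hT.unit φ) (T.f φ) (F.t φ) (F.sl φ) (F'.t φ) (F'.sl φ) _ _ _
    ((OT.cX_co u).lin _) (fun y => ((OT.cX_co u).tr φ y).symm) x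

theorem jtC_dif (hT : Good T) {F F' : OT T} (m n : ℤ) (u : (otF T).P F F' m) :
    jtC hT ((otF T).dif m n u) = gdl m n (jtC hT u) := by
  by_cases h : m + 1 = n
  · refine GTD.Coch.ext' fun X (x : J (T.R X) (F.F X).M.V) => ?_
    have hu := OT.cX_do u X
    have h1 := (om_o1 (F'.F X)).do.comp hu
    have h2 := hu.comp (om_o1 (F.F X)).do
    have h3 : DO (T.R X) ((m.negOnePow : ℤ) • (OT.cX u X ∘ₗ (F.F X).M.d)) := by
      rw [← Int.cast_smul_eq_zsmul ℂ]; exact h2.smul _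
    have e0 : OT.cX ((otF T).dif m n u) X = (F'.F X).M.d ∘ₗ OT.cX u X -
        (m.negOnePow : ℤ) • (OT.cX u X ∘ₗ (F.F X).M.d) := LinearMap.ext ((otF T).dif_f h u X)
    have e := LinearMap.congr_fun (J.map_congr e0 (OT.cX_do _ X) (h1.sub h3)) x
    rw [J.map_sub _ h1 _ h3, LinearMap.sub_apply, map_zsmul' _ _ h2, ← jmm _ (om_o1 (F'.F X)).do _ hu,
      ← jmm _ hu _ (om_o1 (F.F X)).do] at e
    exact e.trans (gdl_f h (jtC hT u) X x).symm
  · rw [gdl_ne h, (otF T).dif_ne h]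
    exact GTD.Coch.ext' fun X x => LinearMap.congr_fun J.map_zero x

/-- The map on cochains. -/
def jtL (hT : Good T) (F F' : OT T) (n : ℤ) :
    (otF T).P F F' n →ₗ[ℂ] GTD.Coch (F.jt hT) (F'.jt hT) n where
  toFun := jtC hT
  map_add' u v := GTD.Coch.ext' fun X x => LinearMap.congr_fun
    (J.map_add _ (OT.cX_do u X) _ (OT.cX_do v X)) x
  map_smul' c u := GTD.Coch.ext' fun X x => LinearMap.congr_fun (J.map_smul c _ (OT.cX_do u X)) x

/-- The DG functor of jets. -/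
def jtD (hT : Good T) : DGF (otc T) (gtc T) where
  obj F := OT.jt F hT
  map {F F'} n := jtL hT F F' n
  map_one F := GTD.Coch.ext' fun X x => LinearMap.congr_fun J.map_id x
  map_comp h u v := GTD.Coch.ext' fun X x => (jmm _ (OT.cX_do v X) _ (OT.cX_do u X) x).symm
  map_d m n u := jtC_dif hT m n u

theorem jtD_obj (hT : Good T) (F : OT T) : (jtD hT).obj F = F.jt hT := rfl

theorem jtD_map (hT : Good T) {F F' : OT T} {n : ℤ} (u : (otF T).P F F' n) :
    (jtD hT).map n u = jtC hT u := rfl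

theorem ev0_jtC (hT : Good T) {F F' : OT T} {n : ℤ} (u : (otF T).P F F' n) (X : T.C)
    (x : (jA (F.F X)).M.V) : ev0 (F'.F X) ((jtC hT u).f X x) = OT.cX u X (ev0 (F.F X) x) :=
  J.ev_map _ ((OT.cX_co u).lin X) x

/-- The components of the image of a closed morphism. -/
theorem gh_jtD (hT : Good T) {F F' : Z0 (otc T)} (a : F ⟶ F') (X : T.C) :
    gh ((jtD hT).z0.map a) X = jH (M := oA (OT.F F X)) (N := oA (OT.F F' X)) ((otF T).hom a X)
      (OT.cX_do (zf a : (otF T).P F F' 0) X) := rfl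

end

end Vale.Agent.P286EX
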