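import Vale.Agent.P286EX4.Wire
import Vale.Agent.P286EXC.Aug

/-!
# The fold on the jets of the total
-/

set_option linter.all false

namespace Vale.Agent.P286EX

open CategoryTheory TensorProduct Vale.Agent.P286 Vale.Agent.P286.St Vale.Agent.P286.H847
  Vale.Agent.P286.H353 Vale.Agent.P286.H710 Vale.Agent.P286.H697 Vale.Agent.P286.H389
  Vale.Agent.P286.H652

noncomputable section

variable {T : TSite} {S : GS T}

theorem ev0_gh (hT : Good T) {F F' : Z0 (otc T)} (a : F ⟶ F') (X : T.C)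
    (x : (jA (OT.F F X)).M.V) :
    ev0 (OT.F F' X) ((gh ((jtD hT).z0.map a) X).f x) =
      ((otF T).hom a X).f (ev0 (OT.F F X) x) := ev0_jtC hT (zf a) X x

/-- The Taylor series of a gauge family at a test object. -/
def HG.jj (L : HG S) (X : T.C) : GD.Hom (L.K X).M ((L.gau.jt S.good).F X) :=
  j2P (bT T X) (L.K X)

theorem HG.ev0_jj (L : HG S) (X : T.C) (x : (L.K X).M.V) :
    ev0 (L.gau.F X) ((L.jj X).f x) = (1 : Om ℂ (T.R X)) ⊗ₜ[T.R X] x := ev0_j2P _ _ x

theorem HG.e0_jj (L : HG S) (X : T.C) (x : (L.K X).M.V) :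
    ((e0F L).u X).f ((L.jj X).f x) = x := e0_j2P _ _ x

variable (B : MD T) (L : HG S) (X : T.C)

/-- The fold on level zero, on the diagonal, in form degree zero. -/
def MD.gJ : GD.Hom (((B.mid L.gau).jt S.good).F X) (L.K X).M :=
  (e0 (bT T X) (L.K X)).comp (jH (M := oA ((B.mid L.gau).F X)) (N := oA (L.gau.F X))
    (B.g L.gau X) (DO.lin (om_lin (n := 0) fun w x => by
      rw [Om.sgz_zero]; exact B.g_smul L.gau X w x)))

theorem MD.gJ_apply (x : (jA ((B.mid L.gau).F X)).M.V) :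
    (B.gJ L X).f x = (L.pi X).f ((B.g L.gau X).f (ev0 _ x)) :=
  congrArg (L.pi X).f (J.ev_map (B.g L.gau X).f (om_lin (n := 0) fun w x => by
    rw [Om.sgz_zero]; exact B.g_smul L.gau X w x) x)

theorem MD.gJ_map {F : Z0 (otc T)} (a : F ⟶ zo (C := otc T) (B.mid L.gau))
    (x : (jA (OT.F F X)).M.V) : (B.gJ L X).f ((gh ((jtD S.good).z0.map a) X).f x) =
      (L.pi X).f ((B.g L.gau X).f (((otF T).hom a X).f (ev0 _ x))) :=
  (B.gJ_apply L X _).trans (congrArg (fun y => (L.pi X).f ((B.g L.gau X).f y))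
    (ev0_gh S.good a X x))

/-- The field `g_m`. -/
theorem MD.gJ_m (x : (L.K X).M.V) : (B.gJ L X).f ((gh ((jtD S.good).z0.map
    (B.mT.app (zo (C := otc T) L.gau))) X).f ((L.jj X).f x)) = x :=
  (B.gJ_map L X (B.mT.app (zo (C := otc T) L.gau)) _).trans
    ((congrArg (L.pi X).f (B.g_m L.gau X _)).trans (L.e0_jj X x))

/-- The field `g_c`, up to the formula for the counit. -/
theorem MD.gJ_jj (L' : HG S) (a : zo (C := otc T) L'.gau ⟶ zo (C := otc T) (B.mid L.gau))
    (y : (L'.K X).M.V) : (B.gJ L X).f ((gh ((jtD S.good).z0.map a) X).f ((L'.jj X).f y)) =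
      (L.pi X).f ((B.g L.gau X).f (((otF T).hom a X).f
        (show L'.V X from (1 : Om ℂ (T.R X)) ⊗ₜ[T.R X] y))) :=
  (B.gJ_map L X a _).trans (congrArg (fun z => (L.pi X).f ((B.g L.gau X).f
    (((otF T).hom a X).f z))) (L'.ev0_jj X y))

end

end Vale.Agent.P286EX
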