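import Vale.Agent.P286.H389.Pgd

/-!
# The binomial series as an operator on completions and on jets
-/

set_option linter.all false

namespace Vale.Agent.P286EX.JT

open Polynomial TensorProduct Vale.Agent.P286.H389

noncomputable section

/-- The binomial coefficient as a polynomial. -/
def bp (k : ℕ) : ℂ[X] := C ((k.factorial : ℂ)⁻¹) * descPochhammer ℂ k

/-- The binomial coefficient. -/
def bc (s : ℂ) (k : ℕ) : ℂ := (bp k).eval s

theorem bc_zero (s : ℂ) : bc s 0 = 1 := by simp [bc, bp]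

theorem bc_succ (s : ℂ) (k : ℕ) : ((k : ℂ) + 1) * bc s (k + 1) = (s - k) * bc s k := by
  have h1 : ((k : ℂ) + 1) ≠ 0 := by exact_mod_cast Nat.succ_ne_zero k
  have h2 : (k.factorial : ℂ) ≠ 0 := by exact_mod_cast k.factorial_ne_zero
  simp only [bc, bp, descPochhammer_succ_right, eval_mul, eval_C, eval_sub, eval_X, eval_natCast,
    Nat.factorial_succ, Nat.cast_mul, Nat.cast_add, Nat.cast_one]
  field_simp

theorem bc_nat (m k : ℕ) : bc m k = m.choose k := by
  rw [Nat.cast_choose_eq_descPochhammer_div, bc, bp, eval_mul, eval_C, div_eq_inv_mul]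

section Ring

variable {R : Type} [Ring R] [Algebra ℂ R]

/-- The partial sums of the binomial series. -/
def bn (s : ℂ) (U : R) (N : ℕ) : R := ∑ k ∈ Finset.range N, bc s k • U ^ k

theorem bn_succ (s : ℂ) (U : R) (N : ℕ) : bn s U (N + 1) = bn s U N + bc s N • U ^ N :=
  Finset.sum_range_succ _ _

theorem bn_one (s : ℂ) (U : R) : bn s U 1 = 1 := by simp [bn, bc_zero]

theorem pow_der {D U H : R} (h : D * U = U * D + (1 + U) * H) (hc : H * U = U * H) (k : ℕ) :
    D * U ^ (k + 1) = U ^ (k + 1) * D + ((k : ℂ) + 1) • (U ^ k * (1 + U) * H) := by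
  induction k with
  | zero => simpa using h
  | succ k ih =>
    have e : U ^ k * (1 + U) * H * U = U ^ (k + 1) * (1 + U) * H := by
      rw [mul_assoc _ H, hc, pow_succ]; noncomm_ring
    rw [pow_succ U (k + 1), ← mul_assoc, ih, add_mul, mul_assoc _ D, h, smul_mul_assoc, e,
      mul_add, ← mul_assoc, ← mul_assoc]
    push_cast
    module

theorem bn_der (s : ℂ) {D U H : R} (h : D * U = U * D + (1 + U) * H) (hc : H * U = U * H)
    (N : ℕ) : D * bn s U (N + 1) = bn s U (N + 1) * D + s • (bn s U (N + 1) * H) -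
      ((s - N) * bc s N) • (U ^ N * H) := by
  induction N with
  | zero => simp [bn_one, bc_zero]
  | succ N ih =>
    rw [bn_succ s U (N + 1), mul_add, ih, mul_smul_comm, pow_der h hc, ← bc_succ, mul_add (U ^ N),
      mul_one, ← pow_succ]
    simp only [add_mul, smul_mul_assoc]
    push_cast
    module

theorem bn_nat (m : ℕ) (U : R) {N : ℕ} (h : m + 1 ≤ N) : bn m U N = (1 + U) ^ m := by
  induction N, h using Nat.le_induction with
  | base =>
    rw [add_comm 1 U, (Commute.one_right U).add_pow, bn]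
    refine Finset.sum_congr rfl fun k _ => ?_
    rw [one_pow, mul_one, bc_nat, Nat.cast_smul_eq_nsmul, nsmul_eq_mul', ]
  | succ N hN ih => rw [bn_succ, ih, bc_nat, Nat.choose_eq_zero_of_lt hN, Nat.cast_zero, zero_smul,
      add_zero]

end Ring

section Poly

variable {V V' : Type} [AddCommGroup V] [Module ℂ V] [AddCommGroup V'] [Module ℂ V']

/-- Polynomial functions with values in a vector space. -/
def PF (g : ℂ → V) : Prop := ∀ l : V →ₗ[ℂ] ℂ, ∃ p : ℂ[X], ∀ s, l (g s) = p.eval s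

theorem PF.const (x : V) : PF fun _ => x := fun l => ⟨C (l x), fun _ => eval_C.symm⟩

theorem PF.sub {g h : ℂ → V} (hg : PF g) (hh : PF h) : PF fun s => g s - h s := fun l => by
  obtain ⟨p, hp⟩ := hg l
  obtain ⟨q, hq⟩ := hh l
  exact ⟨p - q, fun s => by rw [map_sub, hp, hq, eval_sub]⟩

theorem PF.bn {g : ℂ → V} (hg : PF g) (U : Module.End ℂ V) (N : ℕ) :
    PF fun s => bn s U N (g s) := fun l => by
  induction N with
  | zero => exact ⟨0, fun s => by simp [JT.bn]⟩
  | succ N ih =>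
    obtain ⟨p, hp⟩ := ih
    obtain ⟨q, hq⟩ := hg (l ∘ₗ (U ^ N))
    refine ⟨p + bp N * q, fun s => ?_⟩
    rw [eval_add, eval_mul, ← hp, ← hq]
    simp [bn_succ, bc]

theorem PF.mem {g : ℂ → V} (hg : PF g) (G : Submodule ℂ V) (h : ∀ m : ℕ, g m ∈ G) (s : ℂ) :
    g s ∈ G := by
  by_contra hs
  obtain ⟨l, h1, h2⟩ := G.exists_dual_map_eq_bot_of_notMem hs inferInstance
  obtain ⟨p, hp⟩ := hg l
  have h0 : p = 0 := by
    refine p.eq_zero_of_infinite_isRoot
      ((Set.infinite_range_of_injective (Nat.cast_injective (R := ℂ))).mono ?_)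
    rintro _ ⟨m, rfl⟩
    have : l (g m) ∈ G.map l := Submodule.mem_map_of_mem (h m)
    rw [h2, Submodule.mem_bot, hp] at this
    exact this
  exact h1 (by rw [hp, h0, eval_zero])

/-- The operator raises the filtration. -/
structure Up (F : Fil V) (U : Module.End ℂ V) : Prop where
  top : ∀ x, x ∈ F.F 0
  up : ∀ n x, x ∈ F.F n → U x ∈ F.F (n + 1)

variable {F : Fil V} {F' : Fil V'} {U U₁ U₂ : Module.End ℂ V} {U' : Module.End ℂ V'}

theorem Up.pow (h : Up F U) (k : ℕ) {n : ℕ} {x : V} (hx : x ∈ F.F n) : (U ^ k) x ∈ F.F (n + k) := by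
  induction k with
  | zero => exact hx
  | succ k ih => rw [pow_succ']; exact h.up _ _ ih

theorem Up.pow' (h : Up F U) (k : ℕ) (x : V) : (U ^ k) x ∈ F.F k := by
  simpa using h.pow k (h.top x)

theorem bn_mem (s : ℂ) {G : Submodule ℂ V} (h : ∀ x ∈ G, U x ∈ G) (N : ℕ) {x : V} (hx : x ∈ G) :
    bn s U N x ∈ G := by
  have : ∀ k, (U ^ k) x ∈ G := fun k => by
    induction k with
    | zero => exact hx
    | succ k ih => rw [pow_succ']; exact h _ ih
  rw [bn, LinearMap.sum_apply]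
  exact G.sum_mem fun k _ => G.smul_mem _ (this k)

theorem Up.pres (h : Up F U) (n : ℕ) : ∀ x ∈ F.F n, U x ∈ F.F n := fun x hx =>
  F.le n (h.up n x hx)

/-- The binomial series. -/
def bOp (s : ℂ) (h : Up F U) : Op F F where
  S N := bn s U N
  k := 0
  c := 0
  bd N n _ hx := bn_mem s (h.pres n) N hx
  cau N n x hn := by
    rw [bn_succ, LinearMap.add_apply, add_sub_cancel_left]
    exact F.anti hn (Submodule.smul_mem _ _ (h.pow' N x))

theorem bn_comm (s : ℂ) {u : V →ₗ[ℂ] V'} (e : ∀ x, u (U x) = U' (u x)) (N : ℕ) (x : V) :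
    u (bn s U N x) = bn s U' N (u x) := by
  have : ∀ k, u ((U ^ k) x) = (U' ^ k) (u x) := fun k => by
    induction k with
    | zero => rfl
    | succ k ih => rw [pow_succ', pow_succ', Module.End.mul_apply, e, ih]; rfl
  simp only [bn, LinearMap.sum_apply, LinearMap.smul_apply, map_sum, map_smul, this]

theorem bOp_comm (s : ℂ) (h : Up F U) (h' : Up F' U') {u : V →ₗ[ℂ] V'} (hu : Bdd F F' u)
    (e : ∀ x, u (U x) = U' (u x)) (x : Cmp F) :
    lift u hu ((bOp s h).map x) = (bOp s h').map (lift u hu x) := by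
  unfold P286.H389.lift
  rw [← LinearMap.comp_apply, ← LinearMap.comp_apply (bOp s h').map, ← Op.comp_map, ← Op.comp_map]
  refine LinearMap.congr_fun (Op.map_eq _ _ fun n => ⟨0, fun N _ y => ?_⟩) x
  change u (bn s U N y) - bn s U' N (u y) ∈ _
  rw [bn_comm s e, sub_self]
  exact zero_mem _

theorem bOp_der (s : ℂ) (h : Up F U) {D H : Module.End ℂ V} (hD : Bdd F F D) (hH : Bdd F F H)
    (e : D * U = U * D + (1 + U) * H) (hc : H * U = U * H) (x : Cmp F) :
    lift D hD ((bOp s h).map x) =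
      (bOp s h).map (lift D hD x) + s • (bOp s h).map (lift H hH x) := by
  rw [← map_smul, ← LinearMap.smul_apply, ← lift_smul]
  unfold P286.H389.lift
  rw [← LinearMap.comp_apply, ← LinearMap.comp_apply (bOp s h).map,
    ← LinearMap.comp_apply (bOp s h).map, ← Op.comp_map, ← Op.comp_map, ← Op.comp_map,
    ← LinearMap.add_apply, ← Op.add_map]
  refine LinearMap.congr_fun (Op.map_eq _ _ fun n => ⟨n + 1, fun N hN y => ?_⟩) x
  obtain ⟨N, rfl⟩ : ∃ M, N = M + 1 := ⟨N - 1, by omega⟩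
  have h1 := LinearMap.congr_fun (bn_der s e hc N) y
  change (D * bn s U (N + 1)) y - (bn s U (N + 1) (D y) + bn s U (N + 1) (s • H y)) ∈ _
  rw [h1, map_smul]
  simp only [LinearMap.sub_apply, LinearMap.add_apply, LinearMap.smul_apply, Module.End.mul_apply,
    sub_sub_cancel_left]
  exact F.anti (by omega) (neg_mem (Submodule.smul_mem _ _ (h.pow' N _)))

theorem bOp_zero (s : ℂ) (h : Up F U) (e : U = 0) (x : Cmp F) : (bOp s h).map x = x := by
  subst e
  have : (bOp s h).map = LinearMap.id := by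
    rw [← lift_id]
    refine Op.map_eq _ _ fun n => ⟨1, fun N hN y => ?_⟩
    change bn s (0 : Module.End ℂ V) N y - y ∈ _
    have : bn s (0 : Module.End ℂ V) N = 1 := by
      induction N, hN using Nat.le_induction with
      | base => exact bn_one _ _
      | succ N hN ih => rw [bn_succ, ih, zero_pow (by omega), smul_zero, add_zero]
    rw [this, Module.End.one_apply, sub_self]
    exact zero_mem _
  rw [this]
  rfl

theorem Up.nat (h : Up F U) (m N : ℕ) (x : V) : ((1 + U) ^ m) x - bn m U N x ∈ F.F N := by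
  rw [← bn_nat m U (N := N + (m + 1)) (by omega)]
  exact (bOp m h).cau' x le_rfl (by omega)

theorem bOp_mul (s : ℂ) (h : Up F U) (h₁ : Up F U₁) (h₂ : Up F U₂) (hc : U₁ * U₂ = U₂ * U₁)
    (e : 1 + U = (1 + U₁) * (1 + U₂)) (x : Cmp F) :
    (bOp s h).map x = (bOp s h₁).map ((bOp s h₂).map x) := by
  rw [← LinearMap.comp_apply, ← Op.comp_map]
  refine LinearMap.congr_fun (Op.map_eq _ _ fun n => ⟨n, fun N hN y => F.anti hN ?_⟩) x
  refine (((PF.const y).bn U N).sub (((PF.const y).bn U₂ N).bn U₁ N)).mem _ (fun m => ?_) s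
  have hc' : Commute (1 + U₁) (1 + U₂) :=
    (Commute.one_left _).add_left ((Commute.one_right _).add_right hc)
  have h3 := h.nat m N y
  rw [e, hc'.mul_pow, Module.End.mul_apply] at h3
  have := sub_mem (add_mem (h₁.nat m N (((1 + U₂) ^ m) y))
    (bn_mem m (h₁.pres N) N (h₂.nat m N y))) h3
  rw [map_sub] at this
  convert this using 1
  abel

theorem bOp_lim (s : ℂ) (h : Up F U) (u : V →ₗ[ℂ] V') (hu : ∀ x ∈ F.F 1, u x = 0) (x : Cmp F) :
    Cmp.lim F u 1 hu ((bOp s h).map x) = Cmp.lim F u 1 hu x := by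
  induction x using Cmp.ind with
  | h z =>
    rw [Op.lim_map (bOp s h) u 1 hu z (N := 1) (m := 1) le_rfl le_rfl]
    change u (bn s U 1 _) = _
    rw [bn_one]
    rfl

end Poly

section Jet

variable {A B : Type} [CommRing A] [Algebra ℂ A] [CommRing B] [Algebra ℂ B]
  {V V' W : Type} [AddCommGroup V] [Module ℂ V] [Module A V] [IsScalarTower ℂ A V]
  [AddCommGroup V'] [Module ℂ V'] [Module A V'] [IsScalarTower ℂ A V']
  [AddCommGroup W] [Module ℂ W] [Module B W] [IsScalarTower ℂ B W]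

variable (V) in
/-- The operator `δ₂ / δ₁ - 1`. -/
def uu (δ : A) : Module.End ℂ (A ⊗[ℂ] V) := lf A V (Ring.inverse δ) ∘ₗ tt A V δ

theorem uu_tmul {δ : A} (h : IsUnit δ) (a : A) (x : V) :
    uu V δ (a ⊗ₜ x) = (Ring.inverse δ * a) ⊗ₜ (δ • x) - a ⊗ₜ x := by
  simp [uu, tt_apply, ← mul_assoc, Ring.inverse_mul_cancel δ h]

theorem up_uu (δ : A) : Up (FJ A V) (uu V δ) :=
  ⟨fun _ => Submodule.mem_top, fun _ _ hx => lf_mem _ (tt_mem δ hx)⟩

/-- The operator `(δ₂ / δ₁) ^ s`. -/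
def bt (s : ℂ) (δ : A) : J A V →ₗ[ℂ] J A V := (bOp s (up_uu δ)).map

theorem inv_map (f : A →ₐ[ℂ] B) {δ : A} (h : IsUnit δ) :
    f (Ring.inverse δ) = Ring.inverse (f δ) := by
  obtain ⟨u, rfl⟩ := h
  rw [Ring.inverse_unit]
  exact (Ring.inverse_unit (Units.map (f : A →* B) u)).symm

theorem pull_bt (s : ℂ) {δ : A} (hδ : IsUnit δ) (f : A →ₐ[ℂ] B) (u : V →ₗ[ℂ] W)
    (h : ∀ (a : A) x, u (a • x) = f a • u x) (x : J A V) :
    J.pull f u h (bt s δ x) = bt s (f δ) (J.pull f u h x) :=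
  bOp_comm s _ _ _ (fun y => by
    induction y with
    | zero => simp
    | tmul a y => simp [uu_tmul hδ, uu_tmul (hδ.map f), h, inv_map f hδ]
    | add x y hx hy => simp only [map_add, hx, hy]) x

theorem map_bt (s : ℂ) {δ : A} (hδ : IsUnit δ) (u : V →ₗ[ℂ] V')
    (h : ∀ (a : A) x, u (a • x) = a • u x) (x : J A V) :
    J.map u (DO.lin h) (bt s δ x) = bt s δ (J.map u (DO.lin h) x) :=
  pull_bt s hδ (AlgHom.id ℂ A) u h x

theorem fn_bt (s : ℂ) {δ : A} (hδ : IsUnit δ) (a : A) (x : J A V) :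
    J.fn a (bt s δ x) = bt s δ (J.fn a x) :=
  bOp_comm s _ _ _ (fun y => by
    induction y with
    | zero => simp
    | tmul c y => simp [uu_tmul hδ, mul_left_comm]
    | add x y hx hy => simp only [map_add, hx, hy]) x

theorem bt_one (s : ℂ) (x : J A V) : bt s (1 : A) x = x :=
  bOp_zero s _ (by ext a y; simp [uu_tmul (isUnit_one (M := A))]) x

theorem bt_mul (s : ℂ) {δ ε : A} (hδ : IsUnit δ) (hε : IsUnit ε) (x : J A V) :
    bt s (δ * ε) x = bt s δ (bt s ε x) :=
  bOp_mul s _ _ _ (by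
    ext a y
    simp [uu_tmul hδ, uu_tmul hε, smul_smul, mul_comm δ ε, mul_left_comm]
    abel) (by
    ext a y
    simp [uu_tmul hδ, uu_tmul hε, uu_tmul (hδ.mul hε), smul_smul, mul_assoc,
      Ring.inverse_mul (Or.inl hδ), mul_left_comm]) x

theorem ev_bt (s : ℂ) (δ : A) (x : J A V) : J.ev (bt s δ x) = J.ev x := bOp_lim s _ _ _ x

theorem bt_gr (s : ℂ) (δ : A) {G : Submodule ℂ V} (hG : ∀ (a : A), ∀ x ∈ G, a • x ∈ G)
    {x : J A V} (hx : x ∈ grJ A G) : bt s δ x ∈ grJ A G :=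
  Op.clo _ (fun N _ hy => bn_mem s (fun y hy => rTensor_lG _ _ (Ctn.tt_lG hG δ y hy)) N hy) hx

theorem vf_bt (s : ℂ) {δ : A} (hδ : IsUnit δ) (w : Derivation ℂ A A) (x : J A V) :
    J.vf w (bt s δ x) = bt s δ (J.vf w x) - s • bt s δ (J.fn (Ring.inverse δ * w δ) x) := by
  have hw : w (Ring.inverse δ) = -(Ring.inverse δ * Ring.inverse δ * w δ) := by
    have h1 := congrArg w (Ring.inverse_mul_cancel δ hδ)
    rw [Derivation.leibniz, Derivation.map_one_eq_zero, smul_eq_mul, smul_eq_mul] at h1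
    linear_combination Ring.inverse δ * h1 - w (Ring.inverse δ) * Ring.inverse_mul_cancel δ hδ
  have h := bOp_der s (up_uu (V := V) δ) (J.vf_bdd w) (J.lf_bdd (Ring.inverse δ * w δ)).neg (by
    ext a y
    simp [uu_tmul hδ, hw, add_tmul, neg_tmul, mul_assoc, mul_left_comm a, mul_comm a]
    abel) (by
    ext a y
    simp [uu_tmul hδ, mul_left_comm, mul_assoc]) x
  rw [lift_neg _ (J.lf_bdd _), LinearMap.neg_apply, map_neg, smul_neg, ← sub_eq_add_neg] at h
  exact h

theorem tw_lin {q : W →ₗ[ℂ] W} {e : B → W →ₗ[ℂ] W} (hq : Ord1 B q e) (c δ : B) (a : B) (x : W) :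
    ((Algebra.lsmul ℂ ℂ W c) ∘ₗ e δ) (a • x) = a • ((Algebra.lsmul ℂ ℂ W c) ∘ₗ e δ) x := by
  simp [hq.lin, smul_comm a c]

theorem ord_bt (s : ℂ) {δ : B} (hδ : IsUnit δ) {q : W →ₗ[ℂ] W} {e : B → W →ₗ[ℂ] W}
    (hq : Ord1 B q e) (x : J B W) : J.map q hq.do (bt s δ x) = bt s δ (J.map q hq.do x) +
      s • bt s δ (J.map _ (DO.lin (tw_lin hq (Ring.inverse δ) δ)) x) :=
  bOp_der s (up_uu (V := W) δ) hq.do (DO.lin (tw_lin hq (Ring.inverse δ) δ)) (by
    ext a y
    simp [uu_tmul hδ, hq.comm, tmul_add, smul_smul, Ring.mul_inverse_cancel δ hδ]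
    abel) (by
    ext a y
    simp [uu_tmul hδ, hq.lin, smul_smul, mul_comm δ]) x

/-- The twisted pull-back `(δ₂ / δ₁) ^ s f^*`. -/
def tp (s : ℂ) (δ : B) (f : A →ₐ[ℂ] B) (u : V →ₗ[ℂ] W) (h : ∀ (a : A) x, u (a • x) = f a • u x) :
    J A V →ₗ[ℂ] J B W := bt s δ ∘ₗ J.pull f u h

variable (s : ℂ) {δ : B} (f : A →ₐ[ℂ] B) (u : V →ₗ[ℂ] W) (h : ∀ (a : A) x, u (a • x) = f a • u x)

theorem tp_apply (x : J A V) : tp s δ f u h x = bt s δ (J.pull f u h x) := rfl

theorem ev_tp (x : J A V) : J.ev (tp s δ f u h x) = u (J.ev x) := by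
  rw [tp_apply, ev_bt, J.ev_pull]

theorem ord_tp (hδ : IsUnit δ) {p : V →ₗ[ℂ] V} (hp : DO A p) {q : W →ₗ[ℂ] W}
    {e : B → W →ₗ[ℂ] W} (hq : Ord1 B q e)
    (hd : ∀ x, q (u x) = u (p x) - (algebraMap ℂ B s * Ring.inverse δ) • e δ (u x)) (x : J A V) :
    tp s δ f u h (J.map p hp x) = J.map q hq.do (tp s δ f u h x) := by
  rw [tp_apply, tp_apply, ord_bt s hδ hq, ← map_smul, ← map_add, ← LinearMap.smul_apply,
    ← J.map_smul, ← LinearMap.add_apply, ← J.map_add]
  congr 1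
  refine J.pull_map f u h u h p hp _ _ (fun y => ?_) x
  simp [hd, mul_smul]

theorem tp_trans (hδ : IsUnit δ) :
    P286.St.IsTrans s f δ (fun (a : A) (m : J A V) => J.fn a m)
      (fun (v : Derivation ℂ A A) (m : J A V) => J.vf v m) (fun (a : B) (m : J B W) => J.fn a m)
      (fun (v : Derivation ℂ B B) (m : J B W) => J.vf v m) (tp s δ f u h) where
  fn a m := by rw [tp_apply, tp_apply, J.pull_fn, fn_bt s hδ]
  vf w k c v hw m := by
    have h1 : ∀ y : J B W, J.fn δ (J.fn (Ring.inverse δ * w δ) y) = J.fn (w δ) y := fun y => by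
      have := (J.isDMod (A := B) (V := W)).fn_mul δ (Ring.inverse δ * w δ) y
      rw [← mul_assoc, Ring.mul_inverse_cancel δ hδ, one_mul] at this
      exact this.symm
    simp only [tp_apply]
    rw [vf_bt s hδ, J.pull_vf f u h w k c v hw, map_sub, map_smul, ← fn_bt s hδ, h1, map_sum]
    simp only [fn_bt s hδ]

end Jet

end

end Vale.Agent.P286EX.JT
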