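import Vale.Agent.P286EX.Spec
import Vale.Agent.P286EC.Gen
import Vale.Agent.P286EX6.Cm

/-!
# Operators which commute with the infinitesimal gauge transformations are gauge invariant
-/

set_option linter.all false

namespace Vale.Agent.P286EX

open CategoryTheory Matrix TensorProduct Vale.Agent.P286 Vale.Agent.P286.St Vale.Agent.P286.H847
  Vale.Agent.P286E Vale.Agent.P286EC
open Vale.Agent.P286EK (DD)

noncomputable section

variable {I : Type} [SmallCategory I] {D : CD I} {G : Grp} (K : GK G) (s : ℂ)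

namespace Rat

/-- The universal gauge transform of a point. -/
abbrev gO (X : QO D) : QO D :=
  ⟨X.i, (cop K X).A, (cop K X).x, adm G (cg K X) *ᵥ (cop K X).Y,
    (K.adm_dot (cg_pt K X) _ _).trans (cop K X).sq⟩

/-- The universal gauge transformation. -/
def gP (X : QO D) : Ar G s X (gO K X) :=
  (⟨𝟙 X.i, cL K X.A.R, cg K X, cg_pt K X, fun z => by rw [D.κ_id]; rfl, by
    rw [D.c_id, map_one, one_smul]
    exact K.mul_ht (cg_pt K X) _⟩ : QM G X (gO K X))

variable {s}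

theorem gW_Y {X Y : QO D} (u : Ar G s X Y) :
    dscR K (QM.φ u) (QM.h u) (QM.pt u) ∘ (gO K X).Y = adm G (QM.h u) *ᵥ (QM.φ u ∘ X.Y) := by
  funext a
  have e1 : (adm G (cg K X)).map (dscR K (QM.φ u) (QM.h u) (QM.pt u)) = adm G (QM.h u) :=
    (adm_map _ _).trans (congrArg (adm G) (dscR_g K _ _ _))
  rw [← e1]
  simp only [Function.comp_apply, mulVec, dotProduct, map_sum, map_mul, map_apply]
  exact Finset.sum_congr rfl fun b _ => congrArg _ (dscR_L K _ _ _ _)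

/-- The arrow from the universal gauge transform. -/
def gW {X Y : QO D} (u : Ar G s X Y) : Ar G s (gO K X) Y :=
  (⟨(QM.α (X := X) u :), dscR K (QM.φ u) (QM.h u) (QM.pt u), 1, Grp.Pt.one G,
    fun z => (dscR_L K _ _ _ _).trans (QM.hx u z), by
      rw [gW_Y, Matrix.one_mul, Matrix.mul_one, K.ht_adm (QM.pt u), QM.hY u, Matrix.smul_mul,
        Matrix.mul_assoc, pt_mul_adj (QM.pt u), Matrix.mul_one]⟩ : QM G (gO K X) Y)

theorem gP_gW {X Y : QO D} (u : Ar G s X Y) : gP K s X ≫ gW K u = u :=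
  ar_ext (Category.id_comp _) (AlgHom.ext fun a => dscR_L K _ _ (QM.pt u) a)
    ((Matrix.one_mul _).trans (dscR_g K _ _ (QM.pt u)))

theorem const {A : Type} [CommRing A] [Algebra ℂ A] (f : A ⊗[ℂ] K.O.R)
    (h : ∀ a, lT A (K.L a) f = 0) : ∃ z, f = cL K A z := by
  have e : ∀ (a) (y : A ⊗[ℂ] K.O.R), dT (K.L a) A (TensorProduct.comm ℂ _ _ y) =
      TensorProduct.comm ℂ _ _ (lT A (K.L a) y) := fun a y => by
    induction y using TensorProduct.induction_on with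
    | zero => simp only [map_zero]
    | tmul p q => rfl
    | add x y hx hy => simp only [map_add, hx, hy]
  have h1 := Em.const K (TensorProduct.comm ℂ _ _ f) fun a => by rw [e, h, map_zero]
  exact ⟨_, (TensorProduct.comm ℂ _ _).injective h1⟩

section Gen

variable {T : TSite} {S : GS T} {X Y : T.C}

/-- The connection which kills the gauge transforms. -/
def nb (P : HG S) (p : X ⟶ Y) (w : Derivation ℂ (T.R Y) (T.R Y)) (y : (P.K Y).M.V) :
    (P.K Y).M.V :=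
  (P.K Y).C.act w y - ∑ a, w.liftKaehlerDifferential (S.th p a) • lieOp (P.K Y) (P.i Y a) y

theorem nb_t (P : HG S) (p : X ⟶ Y) (w : Derivation ℂ (T.R Y) (T.R Y))
    (hw : ∀ z, w (T.f p z) = 0) (hd : w (T.dl p) = 0) (x : (P.K X).M.V) :
    nb P p w ((P.t p).f x) = 0 := by
  have h := P.t_act p w 0 Fin.elim0 Fin.elim0 (fun a => hw a) x
  rw [hd, mul_zero, zero_smul, sub_zero, Finset.univ_eq_empty, Finset.sum_empty, zero_add] at h
  exact sub_eq_zero.2 h

theorem nb_sum (P : HG S) (p : X ⟶ Y) (w : Derivation ℂ (T.R Y) (T.R Y)) {ι : Type}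
    (s : Finset ι) (f : ι → T.R Y) (e : ι → (P.K Y).M.V) (he : ∀ γ, nb P p w (e γ) = 0) :
    nb P p w (∑ γ ∈ s, f γ • e γ) = ∑ γ ∈ s, w (f γ) • e γ := by
  have h : ∀ γ, (P.K Y).C.act w (e γ) = _ := fun γ => sub_eq_zero.1 (he γ)
  rw [nb, ← actL_apply, map_sum, sub_eq_iff_eq_add]
  simp only [actL_apply, (P.K Y).C.leibniz, h, map_sum, map_smul, Finset.smul_sum,
    Finset.sum_add_distrib]
  rw [Finset.sum_comm (s := s)]
  simp only [smul_comm (f _)]

/-- The case of the universal gauge transformation. -/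
theorem core (P P' : HG S) (p : X ⟶ Y) (q : Y ⟶ X) (hq : p ≫ q = 𝟙 X) {κ : Type}
    (w : κ → Derivation ℂ (T.R Y) (T.R Y)) (hw : ∀ a z, w a (T.f p z) = 0)
    (hd : ∀ a, w a (T.dl p) = 0) (hc : ∀ f, (∀ a, w a f = 0) → ∃ z, f = T.f p z)
    (r0 : (P.K X).M.V → (P'.K X).M.V) (r1 : (P.K Y).M.V →ₗ[T.R Y] (P'.K Y).M.V)
    (h1 : ∀ v x, r1 ((P.K Y).C.act v x) = (P'.K Y).C.act v (r1 x))
    (h2 : ∀ b x, r1 (lieOp (P.K Y) (P.i Y b) x) = lieOp (P'.K Y) (P'.i Y b) (r1 x))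
    (h3 : ∀ x, (P'.t q).f (r1 x) = r0 ((P.t q).f x))
    {ι : Type} (e : Module.Basis ι (T.R Y) (P'.K Y).M.V)
    (he : ∀ γ, ∃ x, e γ = (P'.t p).f x) (x : (P.K X).M.V) :
    (P'.t p).f (r0 x) = r1 ((P.t p).f x) := by
  classical
  set y := r1 ((P.t p).f x) with hy
  have ey : y = ∑ γ ∈ (e.repr y).support, e.repr y γ • e γ := (e.linearCombination_repr y).symm
  have hc' : ∀ γ, ∃ z, e.repr y γ = T.f p z := fun γ => hc _ fun a => by
    have e1 : nb P' p (w a) y = r1 (nb P p (w a) ((P.t p).f x)) := by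
      simp only [nb, map_sub, map_sum, map_smul, h1, h2, hy]
    rw [nb_t P p _ (hw a) (hd a), map_zero, ey, nb_sum P' p _ _ _ _ fun γ => by
      obtain ⟨x', e'⟩ := he γ
      rw [e']
      exact nb_t P' p _ (hw a) (hd a) x'] at e1
    by_cases hγ : γ ∈ (e.repr y).support
    · exact linearIndependent_iff'.1 e.linearIndependent _ _ e1 γ hγ
    · rw [Finsupp.notMem_support_iff.1 hγ, map_zero]
  choose z hz using hc'
  choose x' hx' using he
  have e2 : y = (P'.t p).f (∑ γ ∈ (e.repr y).support, z γ • x' γ) := by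
    rw [map_sum]
    exact ey.trans (Finset.sum_congr rfl fun γ _ => by rw [hz, hx', P'.t_smul])
  have e3 : ∀ (Q : HG S) x, (Q.t q).f ((Q.t p).f x) = x := fun Q x => by
    rw [← Q.t_comp, hq, Q.t_id]
  have e4 := h3 ((P.t p).f x)
  rw [← hy, e2, e3, e3] at e4
  rw [← e4]
  exact e2.symm

end Gen

theorem lT_cL {A : Type} [CommRing A] [Algebra ℂ A] (a : Fin 3) (z : A) :
    lT A (K.L a) (cL K A z) = 0 :=
  (lT_tmul (K.L a) z 1).trans (by rw [Derivation.map_one_eq_zero, tmul_zero])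

end Rat

variable {K s}

/-- A family of operators which commute with the vector fields and with the infinitesimal gauge
transformations and which is natural for the arrows without gauge transformation is natural. -/
theorem HG.ra_t' (P P' : HG (K.gs D s)) (A : DD I)
    (ra : ∀ X : QO D, (A.A X.i).R → (P.K X).M.V →ₗ[RQ G s X] (P'.K X).M.V)
    (ra_act : ∀ X a v p, ra X a ((P.K X).C.act v p) = (P'.K X).C.act v (ra X a p))
    (ra_lie : ∀ X a b p, ra X a (lieOp (P.K X) (P.i X b) p) = lieOp (P'.K X) (P'.i X b) (ra X a p))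
    {ι : Type} (bc : ∀ {X Y : QO D} (u : Ar G s X Y),
      ∃ e : Module.Basis ι (RQ G s Y) (P'.K Y).M.V, ∀ γ, ∃ x, e γ = (P'.t u).f x)
    (h1 : ∀ {X Y : QO D} (u : Ar G s X Y), QM.h u = 1 → ∀ a p,
      (P'.t u).f (ra X a p) = ra Y ((A.τ (QM.α u)).f a) ((P.t u).f p))
    {X Y : QO D} (u : Ar G s X Y) (a : (A.A X.i).R) (p : (P.K X).M.V) :
    (P'.t u).f (ra X a p) = ra Y ((A.τ (QM.α u)).f a) ((P.t u).f p) := by
  obtain ⟨e, he⟩ := bc (Rat.gP K s X)
  have e1 := Rat.core P P' (Rat.gP K s X) (Rat.gW K (idA G s X)) (Rat.gP_gW K _)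
    (fun b => lT X.A.R (K.L b)) (Rat.lT_cL K (A := X.A.R)) (fun b => Rat.lT_cL K b (X.x (D.r (𝟙 X.i))))
    (Rat.const K (A := X.A.R)) (ra X a) (ra (Rat.gO K X) a) (ra_act (Rat.gO K X) a) (ra_lie (Rat.gO K X) a)
    (fun q => (h1 (Rat.gW K (idA G s X)) rfl a q).trans
      (congrArg (fun b => ra X b _) (A.τ_id X.i a))) e he p
  have e2 : ∀ (Q : HG (K.gs D s)) q, (Q.t u).f q =
      (Q.t (Rat.gW K u)).f ((Q.t (Rat.gP K s X)).f q) := fun Q q =>
    (congrArg (fun w => (Q.t w).f q) (Rat.gP_gW K u).symm).trans (Q.t_comp _ _ q)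
  rw [e2 P', e1, e2 P]
  exact h1 (Rat.gW K u) rfl a _

theorem lie_ra {R : Type} [CommRing R] [Algebra ℂ R] (M : H697.DGM R)
    {i sg r r' : M.M.V →ₗ[R] M.M.V} (hd : ∀ p, M.M.d (r p) = r (M.M.d p) + r' (sg p))
    (hi : ∀ p, r (i p) = i (r p)) (hi' : ∀ p, r' (i p) = i (r' p))
    (hs : ∀ p, sg (i p) = - i (sg p)) (p : M.M.V) : r (lieOp M i p) = lieOp M i (r p) := by
  rw [lieOp_apply, lieOp_apply, ← hi, hd, hd, map_add, map_add, hs, map_neg, hi', hi]
  abel

theorem sg_odd {R : Type} [CommRing R] [Algebra ℂ R] (M : H697.DGM R)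
    (int : DirectSum.IsInternal M.M.gr) {i sg : M.M.V →ₗ[R] M.M.V}
    (hs : ∀ (m : ℤ) p, p ∈ M.M.gr m → sg p = (m.negOnePow : ℤ) • p)
    (hi : ∀ (m : ℤ) p, p ∈ M.M.gr m → i p ∈ M.M.gr (m - 1)) (p : M.M.V) :
    sg (i p) = - i (sg p) := by
  have hp : p ∈ iSup M.M.gr := int.submodule_iSup_eq_top ▸ Submodule.mem_top
  induction hp using Submodule.iSup_induction' with
  | mem m x hx =>
    rw [hs _ _ (hi m x hx), hs m x hx, map_zsmul, Int.negOnePow_sub, Int.negOnePow_one,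
      Units.val_mul, Units.val_neg, Units.val_one, mul_neg, mul_one, neg_smul]
  | zero => simp only [map_zero, neg_zero]
  | add x y _ _ hx hy => simp only [map_add, hx, hy, neg_add]

/-- The field `ra_t` from the other fields and the arrows without gauge transformation. -/
theorem HG.ra_t (P : HG (K.gs D s)) (A : DD I)
    (sg : ∀ X : QO D, (P.K X).M.V →ₗ[RQ G s X] (P.K X).M.V)
    (sg_gr : ∀ (X : QO D) (m : ℤ) p, p ∈ (P.K X).M.gr m → sg X p = (m.negOnePow : ℤ) • p)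
    (int : ∀ X : QO D, DirectSum.IsInternal (P.K X).M.gr)
    (ra : ∀ X : QO D, (A.A X.i).R →ₗ[ℂ] (P.K X).M.V →ₗ[RQ G s X] (P.K X).M.V)
    (ra_d : ∀ X a p, (P.K X).M.d (ra X a p) =
      ra X a ((P.K X).M.d p) + ra X ((A.A X.i).d a) (sg X p))
    (ra_act : ∀ X a v p, ra X a ((P.K X).C.act v p) = (P.K X).C.act v (ra X a p))
    (ra_i : ∀ X a b p, ra X a (P.i X b p) = P.i X b (ra X a p))
    {ι : Type} (e : ∀ X : QO D, ι → (P.K X).M.V) (bc : ∀ {X Y : QO D} (u : Ar G s X Y),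
      ∃ e' : Module.Basis ι (RQ G s Y) (P.K Y).M.V, ∀ γ, e' γ = (P.t u).f (e X γ))
    (h1 : ∀ {X Y : QO D} (u : Ar G s X Y), QM.h u = 1 → ∀ a p,
      (P.t u).f (ra X a p) = ra Y ((A.τ (QM.α u)).f a) ((P.t u).f p))
    {X Y : QO D} (u : Ar G s X Y) (a : (A.A X.i).R) (p : (P.K X).M.V) :
    (P.t u).f (ra X a p) = ra Y ((A.τ (QM.α u)).f a) ((P.t u).f p) :=
  HG.ra_t' P P A (fun X a => ra X a) ra_act
    (fun X a b => lie_ra (P.K X) (ra_d X a) (ra_i X a b) (ra_i X _ b)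
      (sg_odd (P.K X) (int X) (sg_gr X) (P.i_gr X b)))
    (fun u => (bc u).imp fun _ h γ => ⟨_, h γ⟩) h1 u a p

end

end Vale.Agent.P286EX
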