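import Vale.Agent.P286EX4.JT
import Vale.Agent.P286EX3.Pi
import Vale.Agent.P286EX.Hit

/-!
# The natural maps `DR (J F) → F` and `K → J (DR K)`
-/

set_option linter.all false

namespace Vale.Agent.P286EX

open CategoryTheory TensorProduct Vale.Agent.P286 Vale.Agent.P286.St Vale.Agent.P286.H847
  Vale.Agent.P286.H353 Vale.Agent.P286.H710 Vale.Agent.P286.H697 Vale.Agent.P286.H389
  Vale.Agent.P286.H652 Vale.Agent.P286EG JT

noncomputable section

section Point

variable {A : Type} [CommRing A] [Algebra ℂ A] {M N : Type} [AddCommGroup M] [Module A M]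
  [AddCommGroup N] [Module A N]

theorem JT.szT_dR (b : H710.DB ℂ A) (C : H710.FC ℂ A M) (C' : H710.FC ℂ A N) (n : ℤ)
    (u : M →ₗ[A] N) (hu : ∀ v x, u (C.act v x) = C'.act v (u x)) (x : DR ℂ A M) :
    dR b C' (szT n u x) = (n.negOnePow : ℤ) • szT n u (dR b C x) := by
  induction x using DR.induction with
  | zero => simp
  | tmul w x =>
    have h1 : ((n.negOnePow : ℤ) * (n.negOnePow : ℤ)) = 1 := by
      rw [← Units.val_mul, Int.units_mul_self, Units.val_one]
    rw [szT_tmul, dR_tmul, dR_tmul, map_add, szT_tmul, szT_smul, szT_nab b C C' n u hu, Om.sg_sgz,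
      Om.sgz_sg, Om.d_sgz, smul_add, smul_tmul', smul_comm (Om.sgz (n + 1) w), smul_smul, h1,
      one_smul]
  | add x y hx hy => simp only [map_add, hx, hy, smul_add]

/-- The Taylor series is natural for horizontal maps of any parity. -/
theorem toJ_sz (b : H389.DB A) (C : H710.FC ℂ A M) (C' : H710.FC ℂ A N) (n : ℤ)
    (u : M →ₗ[A] N) (hu : ∀ v x, u (C.act v x) = C'.act v (u x))
    (h : DO A ((szT n u).restrictScalars ℂ)) (m : M) :
    J.map ((szT n u).restrictScalars ℂ) h (toJ b C m) = toJ b C' (u m) := by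
  have l : ∀ (a : A) x, (szT n u).restrictScalars ℂ (a • x) = a • (szT n u).restrictScalars ℂ x :=
    fun a x => map_smul (szT n u) a x
  have p0 := DO.lin ((ctn b C).pr_lin 0)
  have p1 := DO.lin ((ctn b C').pr_lin 0)
  have q0 := (ctn b C).ord1.do
  have q1 := (ctn b C').ord1.do
  have e0 : (ctn b C').pr 0 ∘ₗ (szT n u).restrictScalars ℂ =
      (szT n u).restrictScalars ℂ ∘ₗ (ctn b C).pr 0 := LinearMap.ext fun x =>
    (prD_same b (szT n u).toAddMonoidHom (fun q x hx => by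
      induction hx using DR.gr_ind with
      | zero => rw [map_zero]; exact zero_mem _
      | tmul w hw m => exact DR.tmul_mem (Om.sgz_mem n hw) _
      | add x y _ _ hx hy => rw [map_add]; exact add_mem hx hy) 0 x).symm
  have e1 : (ctn b C').nb ∘ₗ (szT n u).restrictScalars ℂ =
      (n.negOnePow : ℤ) • ((szT n u).restrictScalars ℂ ∘ₗ (ctn b C).nb) :=
    LinearMap.ext fun x => szT_dR b.to C C' n u hu x
  have e2 := (ctn b C').eq_T b (J.map _ h (toJ b C m))
    ((jmm _ p1 _ h _).trans ((LinearMap.congr_fun (J.map_congr e0 _ (h.comp p0)) _).trans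
      ((jmm _ h _ p0 _).symm.trans (congrArg _ ((ctn b C).pr_T b _)))))
    ((jmm _ q1 _ h _).trans ((LinearMap.congr_fun (J.map_congr e1 _ (e1 ▸ q1.comp h)) _).trans
      ((map_zsmul' _ _ (h.comp q0) _ _).trans ((congrArg _ ((jmm _ h _ q0 _).symm.trans
        ((congrArg _ (D_toJ b C m)).trans (map_zero _)))).trans (smul_zero _)))))
  rw [e2, J.ev_map _ l, ev_toJ]
  exact congrArg ((ctn b C').T b) (szT_tmul n u 1 m |>.trans (by rw [map_one]; rfl))

theorem evL_pbT {B : Type} [CommRing B] [Algebra ℂ B] (P : OmM A) (Q : OmM B) (f : A →ₐ[ℂ] B)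
    (t : (jA P).M.V →+ (jA Q).M.V) (ht : ∀ (a : A) m, t (a • m) = f a • t m)
    (u : P.M.V →ₗ[ℂ] Q.M.V) (hu : ∀ (w : Om ℂ A) x, u (w • x) = Om.pb f w • u x)
    (e : ∀ x, ev0 Q (t x) = u (ev0 P x)) (x : DR ℂ A (jA P).M.V) :
    evL Q (pbT f t ht x) = u (evL P x) := by
  induction x using DR.induction with
  | zero => simp only [map_zero]
  | tmul w x => rw [pbT_tmul, evL_tmul, evL_tmul, hu, e]
  | add x y hx hy => simp only [map_add, hx, hy]

theorem evL_szT (P Q : OmM A) (n : ℤ) (t : (jA P).M.V →ₗ[A] (jA Q).M.V)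
    (u : P.M.V →ₗ[ℂ] Q.M.V) (hu : ∀ (w : Om ℂ A) x, u (w • x) = Om.sgz n w • u x)
    (e : ∀ x, ev0 Q (t x) = u (ev0 P x)) (x : DR ℂ A (jA P).M.V) :
    evL Q (szT n t x) = u (evL P x) := by
  induction x using DR.induction with
  | zero => simp only [map_zero]
  | tmul w x => rw [szT_tmul, evL_tmul, evL_tmul, hu, e]
  | add x y hx hy => simp only [map_add, hx, hy]

theorem evL_j2P (b : H710.DB ℂ A) (K : DGM A) (t : K.M.V →ₗ[A] (jA (drO b K)).M.V)
    (e : ∀ x, t x = (j2P b K).f x) (x : DR ℂ A K.M.V) : evL (drO b K) (szT 0 t x) = x := by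
  induction x using DR.induction with
  | zero => simp only [map_zero]
  | tmul w x =>
    rw [szT_tmul, evL_tmul, e, ev0_j2P, Om.sgz_zero]
    change w • ((1 : Om ℂ A) ⊗ₜ[A] x : DR ℂ A K.M.V) = _
    rw [smul_tmul', smul_eq_mul, mul_one]
  | add x y hx hy => simp only [map_add, hx, hy]

end Point

variable {T : TSite} (S : GS T)

/-- The de Rham complex of the jets. -/
abbrev OT.dj (F : OT T) : OT T := (ofO S (F.jt S.good)).gau

theorem ev_co (F : OT T) : OT.IsCo (F.dj S) F 0 (fun X => (evA (bT T X) (F.F X)).f) where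
  deg X m x hx := by rw [add_zero]; exact (evA (bT T X) (F.F X)).deg m x hx
  smul X w x := by rw [Om.sgz_zero]; exact evL_smul (F.F X) w x
  tr {X Y} φ x := (congrArg (evL (F.F Y)) (ofO_t (F.jt S.good) φ x)).trans
    (evL_pbT (F.F X) (F.F Y) (T.f φ) _ _ (F.t φ) (F.t_smul φ) (F.ev0_tr S.good φ) x)

/-- The evaluation as a cochain. -/
def evC (F : OT T) : (otF T).P (F.dj S) F 0 := ⟨_, ev_co S F⟩

/-- The evaluation `DR (J F) → F`. -/
def evO (F : OT T) : zo (C := otc T) (F.dj S) ⟶ zo (C := otc T) F :=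
  (otF T).mk0 (F := F.dj S) (F' := F) (fun X => evA (bT T X) (F.F X)) (ev_co S F)

theorem zf_evO (F : OT T) : zf (evO S F) = evC S F := rfl

theorem hom_evO (F : OT T) (X : T.C) : (otF T).hom (evO S F) X = evA (bT T X) (F.F X) := rfl

theorem evC_apply (F : OT T) (X : T.C) (x : DR ℂ (T.R X) (jA (F.F X)).M.V) :
    (evC S F).1 X x = evL (F.F X) x := rfl

/-- The functor `F ↦ DR (J F)`. -/
abbrev djD : DGF (otc T) (otc T) := (jtD S.good).comp ((ofG S).comp (gauD S))

theorem ev_nat {F F' : OT T} {n : ℤ} (u : (otF T).P F F' n) (X : T.C)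
    (x : DR ℂ (T.R X) (jA (F.F X)).M.V) :
    evL (F'.F X) (((djD S).map n u : (otF T).P (F.dj S) (F'.dj S) n).1 X x) =
      OT.cX u X (evL (F.F X) x) :=
  evL_szT (F.F X) (F'.F X) n (cA (jtC S.good u) X) (OT.cX u X) ((OT.cX_co u).smul X)
    (ev0_jtC S.good u X) x

/-- The evaluation as a natural transformation. -/
def evN : (djD S).z0 ⟶ 𝟭 (Z0 (otc T)) where
  app F := evO S F
  naturality _ _ a := H353.z_ext ((otF T).ext' fun X x => ev_nat S (zf a) X x)

theorem evN_app (F : Z0 (otc T)) : (evN S).app F = evO S F := rfl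

/-- The jets of the de Rham complex. -/
abbrev jd (K : GTD T) : GTD T := (ofO S K).gau.jt S.good

theorem j2_tr (K : GTD T) {X Y : T.C} (φ : X ⟶ Y) (x : (K.F X).V) :
    (j2P (bT T Y) (dgm K Y)).f ((K.tr φ).f x) =
      ((jd S K).tr φ).f ((j2P (bT T X) (dgm K X)).f x) := by
  refine (toJ_tw (dbo (bT T X)) (dgm K X).C (dbo (bT T Y)) (dgm K Y).C (T.f φ)
    ((ofO S K).gt φ) ((ofO S K).gau.sl φ) T.s (S.good.unit φ) (fun y => ?_) (fun y => ?_)
    x _ ?_).symm
  · exact (ofO_t K φ _).trans ((prD_same (dbo (bT T X)) (pbT (T.f φ) (tA K φ) (tA_smul K φ))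
      (fun q x hx => pbT_mem _ _ _ hx) 0 y).trans (congrArg _ (ofO_t K φ y).symm))
  · have h1 := (ofO S K).gt_d φ y
    have h2 : (ofO S K).gt φ (sgT (dgm K X).dA y) = sgT (dgm K Y).dA ((ofO S K).gt φ y) :=
      (ofO_t K φ _).trans ((pbT_sgT _ _ _ _ _ _ _ (tA_d K φ) y).trans
        (congrArg _ (ofO_t K φ y).symm))
    have h3 := h1.trans ((congrArg (· - _) (map_add ((ofO S K).gt φ) _ _)).trans
      (add_sub_right_comm _ _ _))
    refine (add_right_cancel (h3.trans (congrArg _ h2))).trans ?_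
    rw [eta, smul_assoc]
    rfl
  · refine (ofO_t K φ _).trans ?_
    change Om.pb (T.f φ) 1 ⊗ₜ[T.R Y] tA K φ x = _
    rw [map_one]
    rfl

/-- The Taylor series `K → J (DR K)`. -/
def j2G (K : GTD T) : zo (C := gtc T) K ⟶ zo (C := gtc T) (jd S K) :=
  gmk (F := K) (F' := jd S K) (fun X => j2P (bT T X) (dgm K X))
    (fun X => j2P_smul (bT T X) (dgm K X)) (fun X => j2P_act (bT T X) (dgm K X)) (j2_tr S K)

theorem gh_j2G (K : GTD T) (X : T.C) : gh (j2G S K) X = j2P (bT T X) (dgm K X) := rfl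

theorem gqis_j2G (K : GTD T) : gqis T (j2G S K) := fun X => qis_j2P (bT T X) (dgm K X)

theorem ev0_j2G (K : GTD T) (X : T.C) (x : (K.F X).V) :
    ev0 ((ofO S K).gau.F X) ((gh (j2G S K) X).f x) =
      (1 : Om ℂ (T.R X)) ⊗ₜ[T.R X] (show (dgm K X).M.V from x) := ev0_j2P (bT T X) (dgm K X) x

/-- The functor `K ↦ J (DR K)`. -/
abbrev jdD : DGF (gtc T) (gtc T) := ((ofG S).comp (gauD S)).comp (jtD S.good)

theorem j2_nat {K K' : GTD T} {n : ℤ} (z : GTD.Coch K K' n) (X : T.C) (x : (K.F X).V) :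
    GTD.Coch.f ((jdD S).map n z : GTD.Coch (jd S K) (jd S K') n) X
      ((j2P (bT T X) (dgm K X)).f x) = (j2P (bT T X) (dgm K' X)).f (z.f X x) :=
  toJ_sz (dbo (bT T X)) (dgm K X).C (dgm K' X).C n (cA z X) (z.vf X)
    (DO.lin (map_smul (szT n (cA z X)))) x

/-- The Taylor series as a natural transformation. -/
def j2N : 𝟭 (Z0 (gtc T)) ⟶ (jdD S).z0 where
  app K := j2G S K
  naturality _ _ a := H353.z_ext (GTD.Coch.ext' fun X x => (j2_nat S (zf a) X x).symm)

theorem j2N_app (K : Z0 (gtc T)) : (j2N S).app K = j2G S K := rfl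

/-- The triangle identity. -/
theorem ev_j2 (K : GTD T) : ((ofG S).comp (gauD S)).z0.map (j2G S K) ≫ evO S (ofO S K).gau =
    𝟙 (zo (C := otc T) (ofO S K).gau) :=
  H353.z_ext ((otF T).ext' fun X x =>
    evL_j2P (bT T X) (dgm K X) (cA (gz (j2G S K)) X) (fun _ => rfl) x)

variable {S}

/-- The value on the diagonal in form degree zero, as a map of families. -/
def e0F (K : HG S) : FA.Hom (gfa (K.gau.jt S.good)) K.fa where
  u X := e0 (bT T X) (K.K X)
  li X a x := e0_smul (bT T X) (K.K X) a x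
  nat φ x := (congrArg (outM _ _) (K.gau.ev0_tr S.good φ x)).trans (K.out_gt φ _)

theorem e0F_u (K : HG S) (X : T.C) : (e0F K).u X = e0 (bT T X) (K.K X) := rfl

theorem e0F_Q (K : HG S) : (e0F K).Q := fun X => qis_e0 (bT T X) (K.K X)

theorem e0F_nat {K K' : HG S} {n : ℤ} (u : (hgF S).P K K' n) (X : T.C)
    (x : (jA (K.gau.F X)).M.V) :
    ((e0F K').u X).f ((jtC S.good (HG.gauC u)).f X x) = u.1 X (((e0F K).u X).f x) :=
  (congrArg (outM _ _) (ev0_jtC S.good (HG.gauC u) X x)).trans (outM_szT n (HG.lin u X) _)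

/-- The evaluation in form degree zero. -/
theorem pi_ev (K : HG S) (X : T.C) (x : (ofO S (K.gau.jt S.good)).V X) :
    (K.pi X).f ((evC S K.gau).1 X x) =
      ((e0F K).u X).f (((ofO S (K.gau.jt S.good)).pi X).f x) :=
  outM_evL (bT T X) (K.K X) x

theorem e0F_j2G (K : GTD T) (X : T.C) (x : (K.F X).V) :
    ((e0F (ofO S K)).u X).f ((gh (j2G S K) X).f x) = x := e0_j2P (bT T X) (dgm K X) x

/-- The jets of a closed morphism which is a homotopy equivalence over the functions. -/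
theorem qis_jtD (hT : Good T) {F F' : OT T} (a : zo (C := otc T) F ⟶ zo (C := otc T) F') (X : T.C)
    (v : GD.Hom (F'.F X).M (F.F X).M) (hv : ∀ (c : T.R X) x, v.f (c • x) = c • v.f x)
    (s : (F.F X).M.V →ₗ[ℂ] (F.F X).M.V) (ds : ∀ (c : T.R X) x, s (c • x) = c • s x)
    (hs : ∀ m, ∀ x ∈ (F.F X).M.gr m, s x ∈ (F.F X).M.gr (m - 1))
    (h : ∀ m, ∀ x ∈ (F.F X).M.gr m, (F.F X).M.d (s x) + s ((F.F X).M.d x) =
      x - v.f (OT.cX (F := F) (F' := F') (zf a) X x))
    (t : (F'.F X).M.V →ₗ[ℂ] (F'.F X).M.V) (dt : ∀ (c : T.R X) x, t (c • x) = c • t x)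
    (ht : ∀ m, ∀ x ∈ (F'.F X).M.gr m, t x ∈ (F'.F X).M.gr (m - 1))
    (k : ∀ m, ∀ x ∈ (F'.F X).M.gr m, (F'.F X).M.d (t x) + t ((F'.F X).M.d x) =
      x - OT.cX (F := F) (F' := F') (zf a) X (v.f x)) :
    GD.Qis (gh ((jtD hT).z0.map a) X) :=
  qis_jH (M := oA (F.F X)) (N := oA (F'.F X)) ((otF T).hom a X) (OT.cX_do (zf a) X) v (DO.lin hv)
    s (DO.lin ds) hs h t (DO.lin dt) ht k

/-- The jets of the de Rham complex of a quasi-isomorphism. -/
theorem qis_jtD_gau {K K' : HG S} (a : zo (C := hgc S) K ⟶ zo (C := hgc S) K') (X : T.C)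
    (h : GD.Qis ((hgF S).hom a X)) : GD.Qis (gh (((gauD S).comp (jtD S.good)).z0.map a) X) := by
  refine GD.Qis.of_comp_left (qis_e0 (bT T X) (K'.K X)) ?_
  have e : (e0 (bT T X) (K'.K X)).comp (gh (((gauD S).comp (jtD S.good)).z0.map a) X) =
      ((hgF S).hom a X).comp (e0 (bT T X) (K.K X)) := hext fun x => e0F_nat (zf a) X x
  exact e ▸ h.comp (qis_e0 (bT T X) (K.K X))

end

end Vale.Agent.P286EX
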